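import Vale.Agent.P255.Model

/-!
# Rectangular lattices in three-space
-/

open scoped Topology
open Set

namespace Vale.Agent.P255.Atlas

noncomputable section

/-- Difference by a vector of the lattice with periods `l`. -/
def Lat (l x y : E3) : Prop := ∀ k, ∃ m : ℤ, y k = x k + m * l k

theorem Lat.refl (l x : E3) : Lat l x x := fun k => ⟨0, by simp⟩

theorem Lat.symm {l x y : E3} (h : Lat l x y) : Lat l y x := fun k => by
  obtain ⟨m, hm⟩ := h k
  exact ⟨-m, by push_cast; linarith⟩

theorem Lat.trans {l x y z : E3} (h : Lat l x y) (h' : Lat l y z) : Lat l x z := fun k => by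
  obtain ⟨m, hm⟩ := h k
  obtain ⟨m', hm'⟩ := h' k
  exact ⟨m + m', by push_cast; linarith⟩

theorem lat_iff_sub {l x y : E3} : Lat l x y ↔ ∀ k, ∃ m : ℤ, y k - x k = m * l k :=
  forall_congr' fun k => exists_congr fun m => ⟨fun h => by linarith, fun h => by linarith⟩

theorem Lat.add {l x y z : E3} (h : Lat l x y) : Lat l z (z + (y - x)) := fun k => by
  obtain ⟨m, hm⟩ := h k
  exact ⟨m, by simp [hm]⟩

theorem isClosed_lat (l : E3) : IsClosed {p : E3 × E3 | Lat l p.1 p.2} := by
  simp only [lat_iff_sub, Set.ofPred_forall]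
  refine isClosed_iInter fun k => ?_
  have hr : IsClosed (range fun m : ℤ => (m : ℝ) * l k) := by
    rcases eq_or_ne (l k) 0 with h | h
    · simp [h, range_const]
    · rw [range_comp' (fun t : ℝ => t * l k) ((↑) : ℤ → ℝ)]
      exact (Homeomorph.mulRight₀ (l k) h).isClosedMap _
        Int.isClosedEmbedding_coe_real.isClosed_range
  have hc : Continuous fun p : E3 × E3 => p.2 k - p.1 k := by fun_prop
  convert hr.preimage hc using 1
  ext p
  simp [mem_range, eq_comm]

theorem int_small {m : ℤ} {t : ℝ} (h : |(m : ℝ) * t| < |t|) : m = 0 := by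
  by_contra hm
  have h1 : (1 : ℝ) ≤ |(m : ℝ)| := by exact_mod_cast Int.one_le_abs hm
  rw [abs_mul] at h
  nlinarith [abs_nonneg t]

theorem Lat.eq_of_near {l x y : E3} (h : Lat l x y)
    (hd : ∀ k, l k ≠ 0 → |y k - x k| < |l k|) : x = y := by
  refine PiLp.ext fun k => ?_
  obtain ⟨m, hm⟩ := h k
  rcases eq_or_ne (l k) 0 with h0 | h0
  · rw [hm, h0]; simp
  · have := hd k h0
    rw [hm, add_sub_cancel_left] at this
    rw [hm, int_small this]; simp

theorem pt_zero (a b c : ℝ) : pt a b c 0 = a := rfl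

theorem pt_one (a b c : ℝ) : pt a b c 1 = b := rfl

theorem pt_two (a b c : ℝ) : pt a b c 2 = c := rfl

theorem pt_eta (x : E3) : pt (x 0) (x 1) (x 2) = x := by
  refine PiLp.ext fun k => ?_
  fin_cases k <;> rfl

theorem neckEq_iff {δ : ℝ} {x y : E3} : NeckEq δ x y ↔ Lat (pt 0 δ 1) x y := by
  simp [NeckEq, Lat, Fin.forall_fin_succ, pt]

theorem blockEq_iff {p : ℝ} {x y : E3} : BlockEq p x y ↔ Lat (pt 10 10 p) x y := by
  simp [BlockEq, Lat, Fin.forall_fin_succ, pt]

/-- Each point has a translate in the period box. -/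
theorem exists_reduce (a p : ℝ) (hp : 0 < p) : ∃ m : ℤ, |a - m * p| ≤ p / 2 := by
  refine ⟨round (a / p), ?_⟩
  have h := abs_sub_round (a / p)
  have he : a - round (a / p) * p = (a / p - round (a / p)) * p := by field_simp
  rw [he, abs_mul, abs_of_pos hp]
  nlinarith

end

end Vale.Agent.P255.Atlas
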