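import Vale.Agent.P255.Profile
import Vale.Agent.P255.Atlas.Lattice

/-!
# The cylindrical ends of the neck
-/

open scoped ContDiff Real Topology RealInnerProductSpace
open Set

namespace Vale.Agent.P255.Atlas

open Vale.Agent.P219 Vale.Agent.P219.Univ

set_option maxSynthPendingDepth 3

noncomputable section

/-- Cylindrical coordinates. -/
def cyl (r a z : ℝ) : E3 := pt (r * Real.cos a) (r * Real.sin a) z

theorem pt_eq_sum (a b c : ℝ) :
    pt a b c = a • pt 1 0 0 + b • pt 0 1 0 + c • pt 0 0 1 := by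
  refine PiLp.ext fun k => ?_
  fin_cases k <;> simp [pt]

theorem inner_eq (u v : E3) : ⟪u, v⟫ = u 0 * v 0 + u 1 * v 1 + u 2 * v 2 := by
  simp [PiLp.inner_apply, Fin.sum_univ_three, mul_comm]

theorem contDiff_cyl {r a z : E3 → ℝ} (hr : ContDiff ℝ ∞ r) (ha : ContDiff ℝ ∞ a)
    (hz : ContDiff ℝ ∞ z) : ContDiff ℝ ∞ fun x => cyl (r x) (a x) (z x) := by
  simp only [cyl, pt_eq_sum (_ * _)]
  exact (((hr.mul ha.cos).smul contDiff_const).add ((hr.mul ha.sin).smul contDiff_const)).add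
    (hz.smul contDiff_const)

theorem cyl_iso {r a z : E3 → ℝ} {r' a' z' : E3 →L[ℝ] ℝ} {x : E3} (hr : HasFDerivAt r r' x)
    (ha : HasFDerivAt a a' x) (hz : HasFDerivAt z z' x) (u v : E3) :
    ⟪fderiv ℝ (fun x => cyl (r x) (a x) (z x)) x u,
      fderiv ℝ (fun x => cyl (r x) (a x) (z x)) x v⟫ =
      r' u * r' v + r x ^ 2 * (a' u * a' v) + z' u * z' v := by
  have h := (((hr.mul ha.cos).smul_const (pt 1 0 0)).add
    ((hr.mul ha.sin).smul_const (pt 0 1 0))).add (hz.smul_const (pt 0 0 1))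
  have he : (fun x => cyl (r x) (a x) (z x)) = fun x =>
      (r x * Real.cos (a x)) • pt 1 0 0 + (r x * Real.sin (a x)) • pt 0 1 0 + z x • pt 0 0 1 :=
    funext fun x => pt_eq_sum _ _ _
  rw [he, (show HasFDerivAt (fun x => (r x * Real.cos (a x)) • pt 1 0 0 +
    (r x * Real.sin (a x)) • pt 0 1 0 + z x • pt 0 0 1) _ x from h).fderiv, inner_eq]
  simp [pt]
  linear_combination (r' u * r' v + r x ^ 2 * (a' u * a' v)) * Real.sin_sq_add_cos_sq (a x)

theorem abs_cyl_le {r a : ℝ} (hr : 0 ≤ r) : |r * Real.cos a| ≤ r ∧ |r * Real.sin a| ≤ r := by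
  constructor <;> rw [abs_mul, abs_of_nonneg hr] <;> apply mul_le_of_le_one_right hr
  · exact Real.abs_cos_le_one a
  · exact Real.abs_sin_le_one a

theorem far_axis {a : ℝ} {m : ℤ} (ha : |a| ≤ 5) (hm : m ≠ 0) : 25 ≤ (a - m * 10) ^ 2 := by
  obtain ⟨h1, h2⟩ := abs_le.1 ha
  rcases lt_trichotomy m 0 with h | h | h
  · have : (m : ℝ) ≤ -1 := by exact_mod_cast (show m ≤ -1 by omega)
    nlinarith
  · exact absurd h hm
  · have : (1 : ℝ) ≤ m := by exact_mod_cast (show 1 ≤ m by omega)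
    nlinarith

theorem mem_block_of {R : ℝ} {x : E3} (h0 : 0 ≤ R) (hR : R < 2) (hx : |x 0| ≤ 5) (hy : |x 1| ≤ 5)
    (h : R ^ 2 < x 0 ^ 2 + x 1 ^ 2) : x ∈ block R := by
  intro m n
  rcases eq_or_ne m 0 with rfl | hm
  · rcases eq_or_ne n 0 with rfl | hn
    · simpa using h
    · have := far_axis hy hn
      nlinarith [sq_nonneg (x 0 - (0 : ℤ) * 10)]
  · have := far_axis hx hm
    nlinarith [sq_nonneg (x 1 - n * 10)]

theorem cyl_mem_block {R r a z : ℝ} (h0 : 0 < R) (hR : R < 2) (h1 : R < r) (h2 : r < R + 1) :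
    cyl r a z ∈ block R := by
  obtain ⟨hc, hs⟩ := abs_cyl_le (a := a) (h0.trans h1).le
  refine mem_block_of h0.le hR ?_ ?_ ?_
  · simp only [cyl, pt_zero]; linarith
  · simp only [cyl, pt_one]; linarith
  · simp only [cyl, pt_zero, pt_one]
    have he : (r * Real.cos a) ^ 2 + (r * Real.sin a) ^ 2 = r ^ 2 := by
      linear_combination r ^ 2 * Real.sin_sq_add_cos_sq a
    rw [he]
    exact pow_lt_pow_left₀ h1 h0.le two_ne_zero

theorem cyl_eq_iff {p r r' a a' z z' : ℝ} (h0 : 0 < r) (h1 : r < 3) (h0' : 0 < r') (h1' : r' < 3) :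
    BlockEq p (cyl r a z) (cyl r' a' z') ↔
      r' = r ∧ (∃ m : ℤ, a' = a + m * (2 * π)) ∧ ∃ m : ℤ, z' = z + m * p := by
  constructor
  · rintro ⟨⟨m, hm⟩, ⟨n, hn⟩, hz⟩
    simp only [cyl, pt_zero, pt_one] at hm hn
    have key : ∀ {s t : ℝ} {m : ℤ}, |s| ≤ r → |t| ≤ r' → t = s + m * 10 → t = s := by
      intro s t m hs ht e
      have : m = 0 := int_small (t := 10) (by
        rw [abs_of_pos (show (0 : ℝ) < 10 by norm_num), show (m : ℝ) * 10 = t - s by linarith]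
        exact (abs_sub _ _).trans_lt (by linarith))
      simpa [this] using e
    have ec := key (abs_cyl_le h0.le).1 (abs_cyl_le h0'.le).1 hm
    have es := key (abs_cyl_le h0.le).2 (abs_cyl_le h0'.le).2 hn
    have er : r' = r := by
      have : r' ^ 2 = r ^ 2 := by
        linear_combination (r' * Real.cos a' + r * Real.cos a) * ec +
          (r' * Real.sin a' + r * Real.sin a) * es - r' ^ 2 * Real.sin_sq_add_cos_sq a' +
          r ^ 2 * Real.sin_sq_add_cos_sq a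
      exact (pow_left_inj₀ h0'.le h0.le two_ne_zero).1 this
    subst er
    have := Real.Angle.cos_sin_inj (mul_left_cancel₀ h0.ne' ec) (mul_left_cancel₀ h0.ne' es)
    obtain ⟨k, hk⟩ := Real.Angle.angle_eq_iff_two_pi_dvd_sub.1 this
    exact ⟨rfl, ⟨k, by linarith⟩, by simpa [cyl, pt_two] using hz⟩
  · rintro ⟨rfl, ⟨m, rfl⟩, hz⟩
    refine ⟨⟨0, ?_⟩, ⟨0, ?_⟩, by simpa [cyl, pt_two] using hz⟩ <;>
      simp [cyl, pt, Real.cos_add_int_mul_two_pi, Real.sin_add_int_mul_two_pi]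

theorem exists_cyl (y : E3) : ∃ a, y = cyl (Real.sqrt (y 0 ^ 2 + y 1 ^ 2)) a (y 2) := by
  refine ⟨Complex.arg ⟨y 0, y 1⟩, ?_⟩
  have hn : Real.sqrt (y 0 ^ 2 + y 1 ^ 2) = ‖(⟨y 0, y 1⟩ : ℂ)‖ := by
    rw [Complex.norm_def, Complex.normSq_apply]; ring_nf
  rw [hn]
  refine PiLp.ext fun k => ?_
  fin_cases k
  · exact (Complex.norm_mul_cos_arg ⟨y 0, y 1⟩).symm
  · exact (Complex.norm_mul_sin_arg ⟨y 0, y 1⟩).symm
  · rfl

theorem toV_eq (δ : ℝ) (x : E3) :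
    toV δ x = cyl (rhoV (x 0)) (2 * π * x 2) (x 1 + δ * x 2) := rfl

theorem toW_eq (δ : ℝ) (x : E3) :
    toW δ x = cyl (rhoW δ (x 0)) (2 * π * x 1 / δ) (x 2) := rfl

theorem contDiff_toV (δ : ℝ) : ContDiff ℝ ∞ (toV δ) :=
  contDiff_cyl ((contDiff_phi₂.comp (by fun_prop)).div_const _) (by fun_prop) (by fun_prop)

theorem contDiff_toW (δ : ℝ) : ContDiff ℝ ∞ (toW δ) :=
  contDiff_cyl ((contDiff_const.mul ((contDiff_phi₁ δ).comp (by fun_prop))).div_const _)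
    (by fun_prop) (by fun_prop)

set_option synthInstance.maxHeartbeats 200000 in
theorem neckMetric_apply (δ : ℝ) (x u v : E3) :
    neckMetric δ x u v = u 0 * v 0 +
      phi₁ δ (x 0) ^ 2 * ((u 1 + twist δ (x 0) * u 2) * (v 1 + twist δ (x 0) * v 2)) +
      phi₂ (x 0) ^ 2 * (u 2 * v 2) := by
  simp [neckMetric, outer, co]
  ring

theorem toV_range {x : E3} (h1 : 2 < x 0) (h2 : x 0 < 3) :
    rhoV 2 < rhoV (x 0) ∧ rhoV (x 0) < rhoV 2 + 1 := by
  rw [rhoV_right h1.le]; constructor <;> linarith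

theorem toW_range {δ : ℝ} (h0 : δ ≠ 0) {x : E3} (h1 : x 0 < -2) (h2 : -3 < x 0) :
    rhoW δ (-2) < rhoW δ (x 0) ∧ rhoW δ (x 0) < rhoW δ (-2) + 1 := by
  rw [rhoW_left h0 h1.le]; constructor <;> linarith

theorem toV_mem {δ : ℝ} {x : E3} (hx : x ∈ strip) (h : 2 < x 0) : toV δ x ∈ block (rhoV 2) :=
  cyl_mem_block rhoV_bounds.1 rhoV_bounds.2 (toV_range h (abs_lt.1 hx).2).1
    (toV_range h (abs_lt.1 hx).2).2

theorem toW_mem {δ : ℝ} (h0 : 0 < δ) (h1 : δ ≤ 1) {x : E3} (hx : x ∈ strip) (h : x 0 < -2) :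
    toW δ x ∈ block (rhoW δ (-2)) :=
  cyl_mem_block (rhoW_bounds h0 h1).1 (rhoW_bounds h0 h1).2
    (toW_range h0.ne' h (abs_lt.1 hx).1).1 (toW_range h0.ne' h (abs_lt.1 hx).1).2

theorem toV_iff {δ : ℝ} {x y : E3} (hx : x ∈ strip) (hy : y ∈ strip) (h : 2 < x 0)
    (h' : 2 < y 0) : BlockEq δ (toV δ x) (toV δ y) ↔ NeckEq δ x y := by
  have hb := rhoV_bounds
  have hx' := toV_range h (abs_lt.1 hx).2
  have hy' := toV_range h' (abs_lt.1 hy).2
  rw [toV_eq, toV_eq, cyl_eq_iff (by linarith) (by linarith) (by linarith) (by linarith),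
    rhoV_right h.le, rhoV_right h'.le]
  have hp : (2 : ℝ) * π ≠ 0 := by positivity
  constructor
  · rintro ⟨hr, ⟨m, hm⟩, ⟨k, hk⟩⟩
    have h2 : y 2 = x 2 + m := mul_left_cancel₀ hp (by linarith)
    refine ⟨by linarith, ⟨k - m, ?_⟩, ⟨m, h2⟩⟩
    rw [h2] at hk
    push_cast
    linarith
  · rintro ⟨hr, ⟨k, hk⟩, ⟨m, hm⟩⟩
    refine ⟨by linarith, ⟨m, by rw [hm]; ring⟩, ⟨k + m, ?_⟩⟩
    rw [hk, hm]; push_cast; ring

theorem toW_iff {δ : ℝ} (h0 : 0 < δ) (h1 : δ ≤ 1) {x y : E3} (hx : x ∈ strip) (hy : y ∈ strip)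
    (h : x 0 < -2) (h' : y 0 < -2) : BlockEq 1 (toW δ x) (toW δ y) ↔ NeckEq δ x y := by
  have hb := rhoW_bounds h0 h1
  have hx' := toW_range h0.ne' h (abs_lt.1 hx).1
  have hy' := toW_range h0.ne' h' (abs_lt.1 hy).1
  rw [toW_eq, toW_eq, cyl_eq_iff (by linarith) (by linarith) (by linarith) (by linarith),
    rhoW_left h0.ne' h.le, rhoW_left h0.ne' h'.le]
  have hp : (2 : ℝ) * π / δ ≠ 0 := by positivity
  constructor
  · rintro ⟨hr, ⟨m, hm⟩, ⟨k, hk⟩⟩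
    refine ⟨by linarith, ⟨m, mul_left_cancel₀ hp ?_⟩, ⟨k, by linarith⟩⟩
    field_simp at hm ⊢
    linarith
  · rintro ⟨hr, ⟨k, hk⟩, ⟨m, hm⟩⟩
    refine ⟨by linarith, ⟨k, ?_⟩, ⟨m, by linarith⟩⟩
    rw [hk]; field_simp

theorem exists_toV (δ : ℝ) {y : E3} (h1 : rhoV 2 < Real.sqrt (y 0 ^ 2 + y 1 ^ 2))
    (h2 : Real.sqrt (y 0 ^ 2 + y 1 ^ 2) < rhoV 2 + 1) :
    ∃ x ∈ strip, 2 < x 0 ∧ toV δ x = y := by
  obtain ⟨a, ha⟩ := exists_cyl y
  set r := Real.sqrt (y 0 ^ 2 + y 1 ^ 2)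
  refine ⟨pt (2 + (r - rhoV 2)) (y 2 - δ * (a / (2 * π))) (a / (2 * π)), ?_, ?_, ?_⟩
  · rw [strip, Set.mem_ofPred_eq, pt_zero, abs_lt]; constructor <;> linarith
  · rw [pt_zero]; linarith
  · have hr : rhoV (2 + (r - rhoV 2)) = r := by
      rw [rhoV_right (by linarith)]; ring
    have hp : (2 : ℝ) * π ≠ 0 := by positivity
    rw [toV_eq, pt_zero, pt_one, pt_two, hr, sub_add_cancel, mul_div_cancel₀ a hp]
    exact ha.symm

theorem exists_toW {δ : ℝ} (h0 : 0 < δ) {y : E3}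
    (h1 : rhoW δ (-2) < Real.sqrt (y 0 ^ 2 + y 1 ^ 2))
    (h2 : Real.sqrt (y 0 ^ 2 + y 1 ^ 2) < rhoW δ (-2) + 1) :
    ∃ x ∈ strip, x 0 < -2 ∧ toW δ x = y := by
  obtain ⟨a, ha⟩ := exists_cyl y
  set r := Real.sqrt (y 0 ^ 2 + y 1 ^ 2)
  refine ⟨pt (-2 - (r - rhoW δ (-2))) (δ * a / (2 * π)) (y 2), ?_, ?_, ?_⟩
  · rw [strip, Set.mem_ofPred_eq, pt_zero, abs_lt]; constructor <;> linarith
  · rw [pt_zero]; linarith
  · have hr : rhoW δ (-2 - (r - rhoW δ (-2))) = r := by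
      rw [rhoW_left h0.ne' (by linarith)]; ring
    have he : 2 * π * (δ * a / (2 * π)) / δ = a := by field_simp
    rw [toW_eq, pt_zero, pt_one, pt_two, hr, he]
    exact ha.symm

theorem toV_iso {δ : ℝ} {x : E3} (h : 2 < x 0) (u v : E3) :
    neckMetric δ x u v = ⟪fderiv ℝ (toV δ) x u, fderiv ℝ (toV δ) x v⟫ := by
  have hr : HasFDerivAt (fun x : E3 => rhoV (x 0)) (co 0) x := by
    have h1 : HasFDerivAt (fun x : E3 => rhoV 2 + (x 0 - 2)) (co 0) x :=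
      ((co 0).hasFDerivAt.sub_const 2).const_add _
    refine h1.congr_of_eventuallyEq ?_
    filter_upwards [(isOpen_lt continuous_const (co 0).continuous).mem_nhds h] with z hz
    exact rhoV_right (le_of_lt hz)
  have ha : HasFDerivAt (fun x : E3 => 2 * π * x 2) ((2 * π) • co 2) x :=
    (co 2).hasFDerivAt.const_mul (2 * π)
  have hz : HasFDerivAt (fun x : E3 => x 1 + δ * x 2) (co 1 + δ • co 2) x :=
    (co 1).hasFDerivAt.add ((co 2).hasFDerivAt.const_mul δ)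
  have e := cyl_iso hr ha hz u v
  rw [neckMetric_apply, phi₁_right (by linarith), twist_right (by linarith)]
  refine (Eq.trans ?_ e.symm)
  simp [co, rhoV]
  field_simp
  ring

theorem toW_iso {δ : ℝ} (h0 : δ ≠ 0) {x : E3} (h : x 0 < -2) (u v : E3) :
    neckMetric δ x u v = ⟪fderiv ℝ (toW δ) x u, fderiv ℝ (toW δ) x v⟫ := by
  have hr : HasFDerivAt (fun x : E3 => rhoW δ (x 0)) (-co 0) x := by
    have h1 : HasFDerivAt (fun x : E3 => rhoW δ (-2) + (-2 - x 0)) (-co 0) x :=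
      ((co 0).hasFDerivAt.const_sub (-2)).const_add _
    refine h1.congr_of_eventuallyEq ?_
    filter_upwards [(isOpen_lt (co 0).continuous continuous_const).mem_nhds h] with z hz
    exact rhoW_left h0 (le_of_lt hz)
  have ha : HasFDerivAt (fun x : E3 => 2 * π * x 1 / δ) ((2 * π / δ) • co 1) x := by
    have := (co 1).hasFDerivAt.const_mul (2 * π / δ) (x := x)
    refine this.congr_of_eventuallyEq (Filter.Eventually.of_forall fun z => ?_)
    simp [co]; ring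
  have hz : HasFDerivAt (fun x : E3 => x 2) (co 2) x := (co 2).hasFDerivAt
  have e := cyl_iso hr ha hz u v
  rw [neckMetric_apply, phi₂_left (by linarith), twist_left (by linarith)]
  refine (Eq.trans ?_ e.symm)
  simp [co, rhoW]
  field_simp

theorem neckMetric_symm (δ : ℝ) (x u v : E3) : neckMetric δ x u v = neckMetric δ x v u := by
  rw [neckMetric_apply, neckMetric_apply]; ring

theorem neckMetric_pos {δ : ℝ} (h0 : 0 < δ) (h1 : δ ≤ 1) (x : E3) {u : E3} (hu : u ≠ 0) :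
    0 < neckMetric δ x u u := by
  have p := pow_pos (phi₁_pos h0 h1 (x 0)) 2
  have q := pow_pos (phi₂_pos (x 0)) 2
  rw [neckMetric_apply]
  set w := u 1 + twist δ (x 0) * u 2 with hw
  by_contra hc
  have a0 := mul_self_nonneg (u 0)
  have a1 := mul_nonneg p.le (mul_self_nonneg w)
  have a2 := mul_nonneg q.le (mul_self_nonneg (u 2))
  have e0 : u 0 = 0 := mul_self_eq_zero.1 (by linarith)
  have e2 : u 2 = 0 := mul_self_eq_zero.1 ((mul_eq_zero.1 (by linarith : phi₂ (x 0) ^ 2 *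
    (u 2 * u 2) = 0)).resolve_left q.ne')
  have e1 : w = 0 := mul_self_eq_zero.1 ((mul_eq_zero.1 (by linarith : phi₁ δ (x 0) ^ 2 *
    (w * w) = 0)).resolve_left p.ne')
  rw [hw, e2, mul_zero, add_zero] at e1
  exact hu (PiLp.ext fun k => by fin_cases k <;> assumption)

set_option synthInstance.maxHeartbeats 200000 in
theorem neckMetric_eq_sum (δ : ℝ) : neckMetric δ = fun x : E3 =>
    outer (co 0) (co 0) + phi₁ δ (x 0) ^ 2 • (outer (co 1) (co 1) +
      twist δ (x 0) • (outer (co 1) (co 2) + outer (co 2) (co 1)) +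
      twist δ (x 0) ^ 2 • outer (co 2) (co 2)) + phi₂ (x 0) ^ 2 • outer (co 2) (co 2) := by
  funext x
  refine ContinuousLinearMap.ext fun u => ContinuousLinearMap.ext fun v => ?_
  simp [neckMetric, outer]
  ring

set_option synthInstance.maxHeartbeats 200000 in
theorem contDiff_neckMetric (δ : ℝ) : ContDiff ℝ ∞ (neckMetric δ) := by
  have h1 : ContDiff ℝ ∞ fun x : E3 => phi₁ δ (x 0) := (contDiff_phi₁ δ).comp (co 0).contDiff
  have h2 : ContDiff ℝ ∞ fun x : E3 => phi₂ (x 0) := contDiff_phi₂.comp (co 0).contDiff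
  have h3 : ContDiff ℝ ∞ fun x : E3 => twist δ (x 0) := (contDiff_twist δ).comp (co 0).contDiff
  rw [neckMetric_eq_sum]
  refine ContDiff.add (F := E3 →L[ℝ] E3 →L[ℝ] ℝ) ?_ ?_
  · refine ContDiff.add (F := E3 →L[ℝ] E3 →L[ℝ] ℝ) contDiff_const ?_
    refine ContDiff.smul (F := E3 →L[ℝ] E3 →L[ℝ] ℝ) (h1.pow 2) ?_
    refine ContDiff.add (F := E3 →L[ℝ] E3 →L[ℝ] ℝ) ?_ ?_
    · exact ContDiff.add (F := E3 →L[ℝ] E3 →L[ℝ] ℝ) contDiff_const
        (ContDiff.smul (F := E3 →L[ℝ] E3 →L[ℝ] ℝ) h3 contDiff_const)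
    · exact ContDiff.smul (F := E3 →L[ℝ] E3 →L[ℝ] ℝ) (h3.pow 2) contDiff_const
  · exact ContDiff.smul (F := E3 →L[ℝ] E3 →L[ℝ] ℝ) (h2.pow 2) contDiff_const

end

end Vale.Agent.P255.Atlas
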