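import Vale.Agent.P255.Model

/-!
# A smooth manifold glued from pieces of three-space
-/

open scoped Manifold ContDiff Topology
open Set Filter

namespace Vale.Agent.P255.Atlas

open Vale.Agent.P219 Vale.Agent.P219.Univ

noncomputable section

/-- `τ` carries the piece `P` at `x` to the piece `Q` at `y`, isometrically at `x`. -/
structure IsTrans {M : Type} (P Q : E3 → M) (G H : MetricField 3) (x y : E3) (τ : E3 → E3) :
    Prop where
  smooth : ContDiffAt ℝ ∞ τ x
  image : τ x = y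
  compat : ∀ᶠ z in 𝓝 x, P z = Q (τ z)
  iso : ∀ u v, G x u v = H y (fderiv ℝ τ x u) (fderiv ℝ τ x v)

/-- Pieces of three-space with smooth metrics which fit together. -/
structure Glue (ι M : Type) where
  /-- The domains. -/
  D : ι → Set E3
  /-- The maps. -/
  P : ι → E3 → M
  /-- The metrics. -/
  G : ι → MetricField 3
  isOpen : ∀ i, IsOpen (D i)
  cover : ∀ q, ∃ i, ∃ x ∈ D i, P i x = q
  inj : ∀ i, ∀ x ∈ D i, ∃ U, IsOpen U ∧ x ∈ U ∧ InjOn (P i) (U ∩ D i)
  trans : ∀ i j x y, x ∈ D i → y ∈ D j → P i x = P j y →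
    ∃ τ, IsTrans (P i) (P j) (G i) (G j) x y τ
  smoothG : ∀ i, ContDiffOn ℝ ∞ (G i) (D i)
  symm : ∀ i, ∀ x ∈ D i, ∀ u v, G i x u v = G i x v u
  pos : ∀ i, ∀ x ∈ D i, ∀ u, u ≠ 0 → 0 < G i x u u

variable {ι M : Type}

namespace Glue

variable (A : Glue ι M)

/-- The centres of the charts. -/
abbrev Centre : Type := {c : ι × E3 // c.2 ∈ A.D c.1}

/-- A domain of injectivity around a centre. -/
def dom (c : A.Centre) : Set E3 :=
  Classical.choose (A.inj c.1.1 c.1.2 c.2) ∩ A.D c.1.1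

theorem isOpen_dom (c : A.Centre) : IsOpen (A.dom c) :=
  (Classical.choose_spec (A.inj c.1.1 c.1.2 c.2)).1.inter (A.isOpen _)

theorem mem_dom (c : A.Centre) : c.1.2 ∈ A.dom c :=
  ⟨(Classical.choose_spec (A.inj c.1.1 c.1.2 c.2)).2.1, c.2⟩

theorem dom_subset (c : A.Centre) : A.dom c ⊆ A.D c.1.1 := inter_subset_right

theorem injOn_dom (c : A.Centre) : InjOn (A.P c.1.1) (A.dom c) :=
  (Classical.choose_spec (A.inj c.1.1 c.1.2 c.2)).2.2

/-- The inverse of a piece around a centre. -/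
def pchart (c : A.Centre) : PartialEquiv M E3 :=
  haveI : Nonempty E3 := ⟨0⟩
  ((A.injOn_dom c).toPartialEquiv (A.P c.1.1) (A.dom c)).symm

theorem pchart_symm (c : A.Centre) : ⇑(A.pchart c).symm = A.P c.1.1 := rfl

theorem pchart_source (c : A.Centre) : (A.pchart c).source = A.P c.1.1 '' A.dom c := rfl

theorem pchart_target (c : A.Centre) : (A.pchart c).target = A.dom c := rfl

theorem pchart_apply (c : A.Centre) {x : E3} (hx : x ∈ A.dom c) :
    A.pchart c (A.P c.1.1 x) = x :=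
  (A.pchart c).right_inv (show x ∈ (A.pchart c).target from hx)

theorem trans_eventually {i j : ι} {x : E3} {τ : E3 → E3} {y : E3}
    (h : IsTrans (A.P i) (A.P j) (A.G i) (A.G j) x y τ) {V : Set E3} (hV : IsOpen V)
    (hy : y ∈ V) : ∀ᶠ z in 𝓝 x, τ z ∈ V ∧ A.P i z = A.P j (τ z) :=
  Filter.Eventually.and (h.smooth.continuousAt.preimage_mem_nhds (hV.mem_nhds (h.image.symm ▸ hy)))
    h.compat

theorem chart_near (c : A.Centre) {i : ι} {x y : E3} {τ : E3 → E3}
    (h : IsTrans (A.P i) (A.P c.1.1) (A.G i) (A.G c.1.1) x y τ) (hy : y ∈ A.dom c) :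
    (fun z => A.pchart c (A.P i z)) =ᶠ[𝓝 x] τ := by
  filter_upwards [A.trans_eventually h (A.isOpen_dom c) hy] with z hz
  rw [hz.2, A.pchart_apply c hz.1]

theorem source_eq (c c' : A.Centre) :
    ((A.pchart c).symm.trans (A.pchart c')).source =
      {x | x ∈ A.dom c ∧ A.P c.1.1 x ∈ A.P c'.1.1 '' A.dom c'} := by
  rw [PartialEquiv.trans_source, PartialEquiv.symm_source, A.pchart_target, A.pchart_source,
    A.pchart_symm]
  rfl

theorem open_overlap (c : A.Centre) (i : ι) {W : Set E3} (hW : IsOpen W) (hWD : W ⊆ A.D i) :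
    IsOpen {x | x ∈ A.dom c ∧ A.P c.1.1 x ∈ A.P i '' W} := by
  rw [isOpen_iff_mem_nhds]
  rintro x ⟨hx, y, hy, e⟩
  obtain ⟨τ, hτ⟩ := A.trans _ _ x y (A.dom_subset c hx) (hWD hy) e.symm
  filter_upwards [(A.isOpen_dom c).mem_nhds hx, A.trans_eventually hτ hW hy] with z hz hz'
  exact ⟨hz, τ z, hz'.1, hz'.2.symm⟩

theorem contDiffOn_change (c c' : A.Centre) :
    ContDiffOn ℝ ∞ ((A.pchart c).symm.trans (A.pchart c'))
      ((A.pchart c).symm.trans (A.pchart c')).source := by
  rw [A.source_eq]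
  rintro x ⟨hx, y, hy, e⟩
  obtain ⟨τ, hτ⟩ := A.trans _ _ x y (A.dom_subset c hx) (A.dom_subset c' hy) e.symm
  refine (hτ.smooth.congr_of_eventuallyEq ?_).contDiffWithinAt
  exact (A.chart_near c' hτ hy)

theorem exists_centre (q : M) : ∃ c : A.Centre, A.P c.1.1 c.1.2 = q := by
  obtain ⟨i, x, hx, e⟩ := A.cover q
  exact ⟨⟨(i, x), hx⟩, e⟩

/-- The preferred centre at a point. -/
def centre (q : M) : A.Centre := Classical.choose (A.exists_centre q)

theorem P_centre (q : M) : A.P (A.centre q).1.1 (A.centre q).1.2 = q :=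
  Classical.choose_spec (A.exists_centre q)

/-- The charts. -/
def core : ChartedSpaceCore E3 M where
  atlas := range A.pchart
  chartAt q := A.pchart (A.centre q)
  mem_chart_source q := ⟨(A.centre q).1.2, A.mem_dom _, A.P_centre q⟩
  chart_mem_atlas q := mem_range_self _
  open_source := by
    rintro _ _ ⟨c, rfl⟩ ⟨c', rfl⟩
    rw [A.source_eq]
    exact A.open_overlap c _ (A.isOpen_dom c') (A.dom_subset c')
  continuousOn_toFun := by
    rintro _ _ ⟨c, rfl⟩ ⟨c', rfl⟩
    exact (A.contDiffOn_change c c').continuousOn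

/-- The glued space. -/
def Space (_A : Glue ι M) : Type := M

instance : TopologicalSpace A.Space := A.core.toTopologicalSpace

instance : ChartedSpace E3 A.Space := A.core.toChartedSpace

/-- The piece maps into the glued space. -/
def map (i : ι) : E3 → A.Space := A.P i

/-- A chart around a centre. -/
def chart (c : A.Centre) : OpenPartialHomeomorph A.Space E3 :=
  A.core.openPartialHomeomorph (A.pchart c) (mem_range_self c)

theorem chart_mem_atlas (c : A.Centre) : A.chart c ∈ atlas E3 A.Space := by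
  change A.chart c ∈ ⋃ (e : PartialEquiv M E3) (he : e ∈ A.core.atlas),
    ({A.core.openPartialHomeomorph e he} : Set (OpenPartialHomeomorph A.Space E3))
  simp only [mem_iUnion]
  exact ⟨A.pchart c, mem_range_self c, rfl⟩

theorem chartAt_eq (q : A.Space) : chartAt E3 q = A.chart (A.centre q) := rfl

theorem chart_apply (c : A.Centre) {x : E3} (hx : x ∈ A.dom c) :
    A.chart c (A.map c.1.1 x) = x :=
  A.pchart_apply c hx

instance : IsManifold (𝓡 3) ∞ A.Space := by
  apply isManifold_of_contDiffOn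
  intro e e' he he'
  change e ∈ ⋃ (p : PartialEquiv M E3) (hp : p ∈ A.core.atlas),
    ({A.core.openPartialHomeomorph p hp} : Set (OpenPartialHomeomorph A.Space E3)) at he
  change e' ∈ ⋃ (p : PartialEquiv M E3) (hp : p ∈ A.core.atlas),
    ({A.core.openPartialHomeomorph p hp} : Set (OpenPartialHomeomorph A.Space E3)) at he'
  simp only [mem_iUnion] at he he'
  obtain ⟨_, ⟨c, rfl⟩, rfl⟩ := he
  obtain ⟨_, ⟨c', rfl⟩, rfl⟩ := he'
  simp only [modelWithCornersSelf_coe, modelWithCornersSelf_coe_symm, Function.id_comp,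
    Function.comp_id, range_id, inter_univ, preimage_id_eq, id_eq]
  exact A.contDiffOn_change c c'

theorem continuousAt_map {i : ι} {x : E3} (hx : x ∈ A.D i) : ContinuousAt (A.map i) x := by
  let c : A.Centre := ⟨(i, x), hx⟩
  exact (A.chart c).symm.continuousAt (show x ∈ (A.chart c).target from A.mem_dom c)

theorem continuousOn_map (i : ι) : ContinuousOn (A.map i) (A.D i) :=
  fun _ hx => (A.continuousAt_map hx).continuousWithinAt

theorem isOpen_image {i : ι} {W : Set E3} (hW : IsOpen W) (hWD : W ⊆ A.D i) :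
    IsOpen (A.map i '' W) := by
  rw [isOpen_iff_mem_nhds]
  rintro _ ⟨x, hx, rfl⟩
  let c : A.Centre := ⟨(i, x), hWD hx⟩
  have h : IsOpen ((A.chart c).symm '' (A.dom c ∩ W)) :=
    (A.chart c).isOpen_image_symm_of_subset_target ((A.isOpen_dom c).inter hW)
      (show A.dom c ∩ W ⊆ (A.chart c).target from inter_subset_left)
  exact mem_of_superset (h.mem_nhds ⟨x, ⟨A.mem_dom c, hx⟩, rfl⟩)
    (image_mono inter_subset_right)

theorem contMDiffOn_map (i : ι) : ContMDiffOn (𝓡 3) (𝓡 3) ∞ (A.map i) (A.D i) := by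
  intro x hx
  let c : A.Centre := ⟨(i, x), hx⟩
  have h := contMDiffOn_symm_of_mem_maximalAtlas (I := 𝓡 3) (n := ∞)
    (IsManifold.subset_maximalAtlas (A.chart_mem_atlas c))
  exact (h.contMDiffAt ((A.chart c).open_target.mem_nhds (A.mem_dom c))).contMDiffWithinAt

/-- Separated pairs of points have disjoint neighbourhoods. -/
theorem t2Space (h : ∀ i j x y, x ∈ A.D i → y ∈ A.D j → A.P i x ≠ A.P j y →
    ∀ᶠ p : E3 × E3 in 𝓝 (x, y), p.1 ∈ A.D i → p.2 ∈ A.D j → A.P i p.1 ≠ A.P j p.2) :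
    T2Space A.Space := by
  refine ⟨fun a b hab => ?_⟩
  obtain ⟨i, x, hx, rfl⟩ := A.cover a
  obtain ⟨j, y, hy, rfl⟩ := A.cover b
  obtain ⟨U, W, hU, hxU, hW, hyW, hUW⟩ := mem_nhds_prod_iff'.1 (h i j x y hx hy hab)
  refine ⟨A.map i '' (U ∩ A.D i), A.map j '' (W ∩ A.D j),
    A.isOpen_image (hU.inter (A.isOpen i)) inter_subset_right,
    A.isOpen_image (hW.inter (A.isOpen j)) inter_subset_right,
    ⟨x, ⟨hxU, hx⟩, rfl⟩, ⟨y, ⟨hyW, hy⟩, rfl⟩, ?_⟩
  rw [Set.disjoint_left]
  rintro _ ⟨u, ⟨huU, huD⟩, rfl⟩ ⟨w, ⟨hwW, hwD⟩, e⟩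
  exact hUW (show (u, w) ∈ U ×ˢ W from ⟨huU, hwW⟩) huD hwD e.symm

end Glue

end

end Vale.Agent.P255.Atlas
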