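import Vale.Agent.P255.Atlas.Space

/-!
# The pieces exist
-/

open scoped ContDiff Topology RealInnerProductSpace Manifold
open Set Filter

namespace Vale.Agent.P255.Atlas

open Vale.Agent.P219 Vale.Agent.P219.Univ

noncomputable section

variable {δ : ℝ}

/-- The domains of the pieces. -/
def domains (δ : ℝ) : Fin 3 → Set E3 := ![strip, block (rhoV 2), block (rhoW δ (-2))]

/-- The maps of the pieces. -/
def maps (δ : ℝ) : Fin 3 → E3 → Carrier δ := ![nmap δ, mk δ 1, mk δ 2]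

/-- The metrics of the pieces. -/
def forms (δ : ℝ) : Fin 3 → MetricField 3 := ![neckMetric δ, flat, flat]

theorem forms_pos (h0 : 0 < δ) (h1 : δ ≤ 1) (i : Fin 3) (x u : E3) (hu : u ≠ 0) :
    0 < forms δ i x u u := by
  fin_cases i
  · exact neckMetric_pos h0 h1 x hu
  · exact real_inner_self_pos.2 hu
  · exact real_inner_self_pos.2 hu

theorem isTrans_toV (h0 : 0 < δ) (h1 : δ ≤ 1) {x y : E3} (hx : x ∈ strip)
    (hy : y ∈ block (rhoV 2)) (h : nmap δ x = mk δ 1 y) :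
    ∃ τ, IsTrans (nmap δ) (mk δ 1) (neckMetric δ) flat x y τ := by
  obtain ⟨hr, he⟩ := (nmap_eq_vmap h0 h1 hx hy).1 h
  refine ⟨fun z => toV δ z + (y - toV δ x),
    ⟨(contDiff_toV δ).contDiffAt.add contDiffAt_const, add_sub_cancel _ _, ?_, fun u v => ?_⟩⟩
  · filter_upwards [isOpen_strip.mem_nhds hx,
      (isOpen_lt continuous_const (co 0).continuous).mem_nhds hr] with z hz hz'
    rw [blockEq_iff] at he
    have hl : BlockEq δ (toV δ z) (toV δ z + (y - toV δ x)) := blockEq_iff.2 he.add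
    exact (nmap_eq_vmap h0 h1 hz (block_lat hl (toV_mem hz hz'))).2 ⟨hz', hl⟩
  · rw [fderiv_add_const]
    exact toV_iso hr u v

theorem isTrans_toW (h0 : 0 < δ) (h1 : δ ≤ 1) {x y : E3} (hx : x ∈ strip)
    (hy : y ∈ block (rhoW δ (-2))) (h : nmap δ x = mk δ 2 y) :
    ∃ τ, IsTrans (nmap δ) (mk δ 2) (neckMetric δ) flat x y τ := by
  obtain ⟨hr, he⟩ := (nmap_eq_wmap h0 h1 hx hy).1 h
  refine ⟨fun z => toW δ z + (y - toW δ x),
    ⟨(contDiff_toW δ).contDiffAt.add contDiffAt_const, add_sub_cancel _ _, ?_, fun u v => ?_⟩⟩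
  · filter_upwards [isOpen_strip.mem_nhds hx,
      (isOpen_lt (co 0).continuous continuous_const).mem_nhds hr] with z hz hz'
    rw [blockEq_iff] at he
    have hl : BlockEq 1 (toW δ z) (toW δ z + (y - toW δ x)) := blockEq_iff.2 he.add
    exact (nmap_eq_wmap h0 h1 hz (block_lat hl (toW_mem h0 h1 hz hz'))).2 ⟨hz', hl⟩
  · rw [fderiv_add_const]
    exact toW_iso h0.ne' hr u v

theorem neck_local_inj (h0 : 0 < δ) (h1 : δ ≤ 1) (x : E3) :
    InjOn (nmap δ) (Metric.ball x (δ / 2) ∩ strip) := by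
  rintro a ⟨ha, ha'⟩ b ⟨hb, hb'⟩ e
  refine (neckEq_iff.1 ((nmap_iff h0 h1 ha' hb').1 e)).eq_of_near fun k hk => ?_
  have hd : dist b a < δ := by
    linarith [dist_triangle b x a, dist_comm x a, Metric.mem_ball.1 ha, Metric.mem_ball.1 hb]
  have hc : |b k - a k| ≤ dist b a := by
    rw [dist_eq_norm]; exact PiLp.norm_apply_le (b - a) k
  fin_cases k <;> simp [pt] at hk hc ⊢
  · rw [abs_of_pos h0]; linarith
  · linarith

theorem block_local_inj {p : ℝ} (h0 : 0 < δ) (h1 : δ ≤ 1) (hp : δ ≤ p) {a b x : E3}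
    (ha : a ∈ Metric.ball x (δ / 2)) (hb : b ∈ Metric.ball x (δ / 2)) (e : BlockEq p a b) :
    a = b := by
  refine (blockEq_iff.1 e).eq_of_near fun k _ => ?_
  have hd : dist b a < δ := by
    linarith [dist_triangle b x a, dist_comm x a, Metric.mem_ball.1 ha, Metric.mem_ball.1 hb]
  have hc : |b k - a k| ≤ dist b a := by
    rw [dist_eq_norm]; exact PiLp.norm_apply_le (b - a) k
  fin_cases k <;> simp [pt] at hc ⊢
  · linarith
  · linarith
  · rw [abs_of_pos (h0.trans_le hp)]; linarith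

/-- The pieces as gluing data. -/
def glue (h0 : 0 < δ) (h1 : δ ≤ 1) : Glue (Fin 3) (Carrier δ) where
  D := domains δ
  P := maps δ
  G := forms δ
  isOpen i := by
    fin_cases i
    · exact isOpen_strip
    · exact isOpen_block _
    · exact isOpen_block _
  cover q := by
    obtain ⟨i, x, hx, rfl⟩ := exists_mk q
    fin_cases i
    · have h : |x 0| ≤ 2 := hx
      exact ⟨0, x, show |x 0| < 3 by linarith, nmap_mid h⟩
    · exact ⟨1, x, hx, rfl⟩
    · exact ⟨2, x, hx, rfl⟩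
  inj i x _ := by
    refine ⟨Metric.ball x (δ / 2), Metric.isOpen_ball, Metric.mem_ball_self (by linarith), ?_⟩
    fin_cases i
    · exact neck_local_inj h0 h1 x
    · exact fun a ha b hb e =>
        block_local_inj h0 h1 le_rfl ha.1 hb.1 ((vmap_iff ha.2 hb.2).1 e)
    · exact fun a ha b hb e =>
        block_local_inj h0 h1 h1 ha.1 hb.1 ((wmap_iff ha.2 hb.2).1 e)
  trans i j x y hx hy h := by
    fin_cases i <;> fin_cases j
    · have hx' : x ∈ strip := hx
      have hy' : y ∈ strip := hy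
      have e := (nmap_iff h0 h1 hx' hy').1 h
      refine ⟨_, isTrans_translation ?_ ?_⟩
      · filter_upwards [isOpen_strip.mem_nhds hx'] with z hz
        have hl : NeckEq δ z (z + (y - x)) := neckEq_iff.2 (neckEq_iff.1 e).add
        have hz' : z + (y - x) ∈ strip := by
          change |(z + (y - x)) 0| < 3
          rw [hl.1]; exact hz
        exact (nmap_iff h0 h1 hz hz').2 hl
      · change neckMetric δ x = neckMetric δ y
        simp only [neckMetric, e.1]
    · exact isTrans_toV h0 h1 hx hy h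
    · exact isTrans_toW h0 h1 hx hy h
    · obtain ⟨τ, hτ⟩ := isTrans_toV h0 h1 hy hx h.symm
      exact hτ.inverse fun u hu => neckMetric_pos h0 h1 y hu
    · have hx' : x ∈ block (rhoV 2) := hx
      have e := (vmap_iff hx' hy).1 h
      refine ⟨_, isTrans_translation ?_ rfl⟩
      filter_upwards [(isOpen_block _).mem_nhds hx'] with z hz
      have hl : BlockEq δ z (z + (y - x)) := blockEq_iff.2 (blockEq_iff.1 e).add
      exact (vmap_iff hz (block_lat hl hz)).2 hl
    · exact absurd h (vmap_ne_wmap hx hy)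
    · obtain ⟨τ, hτ⟩ := isTrans_toW h0 h1 hy hx h.symm
      exact hτ.inverse fun u hu => neckMetric_pos h0 h1 y hu
    · exact absurd h.symm (vmap_ne_wmap hy hx)
    · have hx' : x ∈ block (rhoW δ (-2)) := hx
      have e := (wmap_iff hx' hy).1 h
      refine ⟨_, isTrans_translation ?_ rfl⟩
      filter_upwards [(isOpen_block _).mem_nhds hx'] with z hz
      have hl : BlockEq 1 z (z + (y - x)) := blockEq_iff.2 (blockEq_iff.1 e).add
      exact (wmap_iff hz (block_lat hl hz)).2 hl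
  smoothG i := by
    fin_cases i
    · exact (contDiff_neckMetric δ).contDiffOn
    · exact contDiffOn_const
    · exact contDiffOn_const
  symm i x _ u v := by
    fin_cases i
    · exact neckMetric_symm δ x u v
    · exact (real_inner_comm v u : ⟪u, v⟫ = ⟪v, u⟫)
    · exact (real_inner_comm v u : ⟪u, v⟫ = ⟪v, u⟫)
  pos i x _ u hu := forms_pos h0 h1 i x u hu

theorem separated_lat {l : E3} {f g : E3 → E3} (hf : Continuous f) (hg : Continuous g) {x y : E3}
    (h : ¬Lat l (f x) (g y)) : ∀ᶠ p : E3 × E3 in 𝓝 (x, y), ¬Lat l (f p.1) (g p.2) := by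
  have hc : ContinuousAt (fun p : E3 × E3 => (f p.1, g p.2)) (x, y) :=
    ((hf.comp continuous_fst).prodMk (hg.comp continuous_snd)).continuousAt
  exact hc.preimage_mem_nhds
    ((isClosed_lat l).isOpen_compl.mem_nhds (show (f x, g y) ∈ {p : E3 × E3 | Lat l p.1 p.2}ᶜ from h))

theorem neck_block_sep (h0 : 0 < δ) (h1 : δ ≤ 1) {x y : E3} (hx : x ∈ strip)
    (hy : y ∈ block (rhoV 2)) (h : nmap δ x ≠ mk δ 1 y) :
    ∀ᶠ p : E3 × E3 in 𝓝 (x, y), p.1 ∈ strip → p.2 ∈ block (rhoV 2) →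
      nmap δ p.1 ≠ mk δ 1 p.2 := by
  rcases lt_or_ge (x 0) 2 with hr | hr
  · filter_upwards [((co 0).continuous.comp continuous_fst).continuousAt.eventually_lt
      (continuousAt_const (x := (x, y)) (y := (2 : ℝ))) hr] with p hp hp1 hp2 e
    exact absurd ((nmap_eq_vmap h0 h1 hp1 hp2).1 e).1 (not_lt.2 (le_of_lt hp))
  · have hn : ¬Lat (pt 10 10 δ) (toV δ x) y := fun e => by
      rcases eq_or_lt_of_le hr with h2 | h2
      · have hm := block_lat (blockEq_iff.2 e.symm) hy 0 0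
        rw [toV_eq, cyl, pt_zero, pt_one, ← h2] at hm
        simp only [Int.cast_zero, zero_mul, sub_zero] at hm
        have he : (rhoV 2 * Real.cos (2 * Real.pi * x 2)) ^ 2 +
            (rhoV 2 * Real.sin (2 * Real.pi * x 2)) ^ 2 = rhoV 2 ^ 2 := by
          linear_combination rhoV 2 ^ 2 * Real.sin_sq_add_cos_sq (2 * Real.pi * x 2)
        linarith
      · exact h ((nmap_eq_vmap h0 h1 hx hy).2 ⟨h2, blockEq_iff.2 e⟩)
    filter_upwards [separated_lat (g := fun z => z) (contDiff_toV δ).continuous continuous_id hn]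
      with p hp hp1 hp2 e
    exact hp (blockEq_iff.1 ((nmap_eq_vmap h0 h1 hp1 hp2).1 e).2)

theorem neck_block_sep' (h0 : 0 < δ) (h1 : δ ≤ 1) {x y : E3} (hx : x ∈ strip)
    (hy : y ∈ block (rhoW δ (-2))) (h : nmap δ x ≠ mk δ 2 y) :
    ∀ᶠ p : E3 × E3 in 𝓝 (x, y), p.1 ∈ strip → p.2 ∈ block (rhoW δ (-2)) →
      nmap δ p.1 ≠ mk δ 2 p.2 := by
  rcases lt_or_ge (-2) (x 0) with hr | hr
  · filter_upwards [(continuousAt_const (x := (x, y)) (y := (-2 : ℝ))).eventually_lt
      ((co 0).continuous.comp continuous_fst).continuousAt hr] with p hp hp1 hp2 e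
    exact absurd ((nmap_eq_wmap h0 h1 hp1 hp2).1 e).1 (not_lt.2 (le_of_lt hp))
  · have hn : ¬Lat (pt 10 10 1) (toW δ x) y := fun e => by
      rcases eq_or_lt_of_le hr with h2 | h2
      · have hm := block_lat (blockEq_iff.2 e.symm) hy 0 0
        rw [toW_eq, cyl, pt_zero, pt_one, h2] at hm
        simp only [Int.cast_zero, zero_mul, sub_zero] at hm
        have he : (rhoW δ (-2) * Real.cos (2 * Real.pi * x 1 / δ)) ^ 2 +
            (rhoW δ (-2) * Real.sin (2 * Real.pi * x 1 / δ)) ^ 2 = rhoW δ (-2) ^ 2 := by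
          linear_combination rhoW δ (-2) ^ 2 * Real.sin_sq_add_cos_sq (2 * Real.pi * x 1 / δ)
        linarith
      · exact h ((nmap_eq_wmap h0 h1 hx hy).2 ⟨h2, blockEq_iff.2 e⟩)
    filter_upwards [separated_lat (g := fun z => z) (contDiff_toW δ).continuous continuous_id hn]
      with p hp hp1 hp2 e
    exact hp (blockEq_iff.1 ((nmap_eq_wmap h0 h1 hp1 hp2).1 e).2)

theorem t2Space (h0 : 0 < δ) (h1 : δ ≤ 1) : T2Space (glue h0 h1).Space := by
  refine Glue.t2Space _ fun i j x y hx hy h => ?_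
  fin_cases i <;> fin_cases j
  · have hn : ¬Lat (pt 0 δ 1) (id x) (id y) := fun e =>
      h ((nmap_iff h0 h1 hx hy).2 (neckEq_iff.2 e))
    filter_upwards [separated_lat continuous_id continuous_id hn] with p hp h1' h2' e
    exact hp (neckEq_iff.1 ((nmap_iff h0 h1 h1' h2').1 e))
  · exact neck_block_sep h0 h1 hx hy h
  · exact neck_block_sep' h0 h1 hx hy h
  · filter_upwards [continuous_swap.continuousAt.tendsto.eventually
      (neck_block_sep h0 h1 hy hx (Ne.symm h))] with p hp h1' h2'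
    exact (hp h2' h1').symm
  · have hn : ¬Lat (pt 10 10 δ) (id x) (id y) := fun e =>
      h ((vmap_iff hx hy).2 (blockEq_iff.2 e))
    filter_upwards [separated_lat continuous_id continuous_id hn] with p hp h1' h2' e
    exact hp (blockEq_iff.1 ((vmap_iff h1' h2').1 e))
  · exact Eventually.of_forall fun p h1' h2' => vmap_ne_wmap h1' h2'
  · filter_upwards [continuous_swap.continuousAt.tendsto.eventually
      (neck_block_sep' h0 h1 hy hx (Ne.symm h))] with p hp h1' h2'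
    exact (hp h2' h1').symm
  · exact Eventually.of_forall fun p h1' h2' => (vmap_ne_wmap h2' h1').symm
  · have hn : ¬Lat (pt 10 10 1) (id x) (id y) := fun e =>
      h ((wmap_iff hx hy).2 (blockEq_iff.2 e))
    filter_upwards [separated_lat continuous_id continuous_id hn] with p hp h1' h2' e
    exact hp (blockEq_iff.1 ((wmap_iff h1' h2').1 e))

/-- A closed coordinate box. -/
def box (b : Fin 3 → ℝ) : Set E3 := {x | ∀ k, |x k| ≤ b k}

theorem isCompact_box (b : Fin 3 → ℝ) : IsCompact (box b) := by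
  have : box b = WithLp.toLp 2 '' (univ.pi fun k => Icc (-b k) (b k)) := by
    ext x
    constructor
    · exact fun h => ⟨fun k => x k, fun k _ => abs_le.1 (h k), rfl⟩
    · rintro ⟨f, hf, rfl⟩ k
      exact abs_le.2 (hf k trivial)
  rw [this]
  exact (isCompact_univ_pi fun k => isCompact_Icc).image (PiLp.continuous_toLp 2 fun _ => ℝ)

/-- The compact part of the neck. -/
def neckCore : Set E3 := box ![5 / 2, 1, 1]

/-- A compact part of a block. -/
def blockCore (R : ℝ) : Set E3 :=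
  box ![5, 5, 1] ∩ {x | R + 1 / 2 ≤ Real.sqrt (x 0 ^ 2 + x 1 ^ 2)}

theorem neckCore_subset : neckCore ⊆ strip := fun x hx => by
  have h : |x 0| ≤ 5 / 2 := hx 0
  change |x 0| < 3
  linarith

theorem sq_lt_of_lt_sqrt {R : ℝ} {x : E3} (hR : 0 ≤ R)
    (h : R < Real.sqrt (x 0 ^ 2 + x 1 ^ 2)) : R ^ 2 < x 0 ^ 2 + x 1 ^ 2 :=
  (Real.lt_sqrt hR).1 h

theorem blockCore_subset {R : ℝ} (h0 : 0 < R) (h2 : R < 2) : blockCore R ⊆ block R :=
  fun x ⟨hb, hr⟩ => mem_block_of h0.le h2 (hb 0) (hb 1)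
    (sq_lt_of_lt_sqrt h0.le (by have : R + 1 / 2 ≤ Real.sqrt (x 0 ^ 2 + x 1 ^ 2) := hr; linarith))

theorem isCompact_blockCore (R : ℝ) : IsCompact (blockCore R) :=
  (isCompact_box _).inter_right (isClosed_le continuous_const (by fun_prop))

/-- A translate in the box of the neck. -/
theorem neck_reduce (h0 : 0 < δ) (h1 : δ ≤ 1) {x : E3} (hx : |x 0| ≤ 5 / 2) :
    ∃ z ∈ neckCore, z 0 = x 0 ∧ nmap δ z = nmap δ x := by
  obtain ⟨m, hm⟩ := exists_reduce (x 1) δ h0
  obtain ⟨n, hn⟩ := exists_reduce (x 2) 1 one_pos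
  refine ⟨pt (x 0) (x 1 - m * δ) (x 2 - n * 1), fun k => ?_, rfl, ?_⟩
  · fin_cases k
    · exact hx
    · change |x 1 - m * δ| ≤ 1
      linarith
    · change |x 2 - n * 1| ≤ 1
      linarith
  · have hs : x ∈ strip := show |x 0| < 3 by linarith
    have hz : pt (x 0) (x 1 - m * δ) (x 2 - n * 1) ∈ strip := show |x 0| < 3 by linarith
    refine (nmap_iff h0 h1 hz hs).2 ⟨rfl, ⟨m, ?_⟩, ⟨n, ?_⟩⟩
    · simp [pt]
    · simp [pt]

/-- A translate in the box of a block. -/
theorem block_reduce {p R : ℝ} (hp : 0 < p) (hp1 : p ≤ 1) {x : E3} (hx : x ∈ block R) :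
    ∃ z ∈ box ![5, 5, 1], z ∈ block R ∧ BlockEq p z x := by
  obtain ⟨a, ha⟩ := co_round (x 0)
  obtain ⟨b, hb⟩ := co_round (x 1)
  obtain ⟨c, hc⟩ := exists_reduce (x 2) p hp
  have he : BlockEq p (pt (x 0 - a * 10) (x 1 - b * 10) (x 2 - c * p)) x :=
    ⟨⟨a, by simp [pt]⟩, ⟨b, by simp [pt]⟩, ⟨c, by simp [pt]⟩⟩
  refine ⟨_, fun k => ?_, block_lat (blockEq_iff.2 (blockEq_iff.1 he).symm) hx, he⟩
  fin_cases k
  · exact ha
  · exact hb
  · change |x 2 - c * p| ≤ 1
    linarith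

theorem sqrt_gt_of_block {R : ℝ} {x : E3} (hR : 0 ≤ R) (hx : x ∈ block R) :
    R < Real.sqrt (x 0 ^ 2 + x 1 ^ 2) := by
  rw [Real.lt_sqrt hR]
  simpa using hx 0 0

theorem covered (h0 : 0 < δ) (h1 : δ ≤ 1) (q : Carrier δ) :
    q ∈ nmap δ '' neckCore ∪ mk δ 1 '' blockCore (rhoV 2) ∪
      mk δ 2 '' blockCore (rhoW δ (-2)) := by
  obtain ⟨i, x, hx, rfl⟩ := exists_mk q
  fin_cases i
  · have h : |x 0| ≤ 2 := hx
    obtain ⟨z, hz, -, e⟩ := neck_reduce h0 h1 (x := x) (by linarith)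
    exact Or.inl (Or.inl ⟨z, hz, e.trans (nmap_mid h)⟩)
  · have hx' : x ∈ block (rhoV 2) := hx
    obtain ⟨z, hzb, hz, he⟩ := block_reduce h0 h1 hx'
    have e : mk δ 1 z = mk δ 1 x := (vmap_iff hz hx').2 he
    rcases le_or_gt (rhoV 2 + 1 / 2) (Real.sqrt (z 0 ^ 2 + z 1 ^ 2)) with hr | hr
    · exact Or.inl (Or.inr ⟨z, ⟨hzb, hr⟩, e⟩)
    · have hl := sqrt_gt_of_block rhoV_bounds.1.le hz
      obtain ⟨w, hw, hw2, hwz⟩ := exists_toV δ hl (by linarith)
      have hw3 := rhoV_right hw2.le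
      have hw4 : rhoV (w 0) = Real.sqrt (z 0 ^ 2 + z 1 ^ 2) := by
        have hp : 0 < rhoV (w 0) := by linarith [rhoV_bounds.1]
        rw [← hwz, toV_eq, cyl, pt_zero, pt_one, eq_comm,
          show (rhoV (w 0) * Real.cos (2 * Real.pi * w 2)) ^ 2 +
            (rhoV (w 0) * Real.sin (2 * Real.pi * w 2)) ^ 2 = rhoV (w 0) ^ 2 by
            linear_combination rhoV (w 0) ^ 2 * Real.sin_sq_add_cos_sq (2 * Real.pi * w 2)]
        exact Real.sqrt_sq hp.le
      obtain ⟨z', hz', -, e'⟩ := neck_reduce h0 h1 (x := w)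
        (abs_le.2 ⟨by linarith, by linarith⟩)
      exact Or.inl (Or.inl ⟨z', hz', by rw [e', nmap_right hw2, hwz]; exact e⟩)
  · have hx' : x ∈ block (rhoW δ (-2)) := hx
    obtain ⟨z, hzb, hz, he⟩ := block_reduce one_pos le_rfl hx'
    have e : mk δ 2 z = mk δ 2 x := (wmap_iff hz hx').2 he
    rcases le_or_gt (rhoW δ (-2) + 1 / 2) (Real.sqrt (z 0 ^ 2 + z 1 ^ 2)) with hr | hr
    · exact Or.inr ⟨z, ⟨hzb, hr⟩, e⟩
    · have hl := sqrt_gt_of_block (rhoW_bounds h0 h1).1.le hz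
      obtain ⟨w, hw, hw2, hwz⟩ := exists_toW h0 hl (by linarith)
      have hw3 := rhoW_left h0.ne' hw2.le
      have hw4 : rhoW δ (w 0) = Real.sqrt (z 0 ^ 2 + z 1 ^ 2) := by
        have hp : 0 < rhoW δ (w 0) := by linarith [(rhoW_bounds h0 h1).1]
        rw [← hwz, toW_eq, cyl, pt_zero, pt_one, eq_comm,
          show (rhoW δ (w 0) * Real.cos (2 * Real.pi * w 1 / δ)) ^ 2 +
            (rhoW δ (w 0) * Real.sin (2 * Real.pi * w 1 / δ)) ^ 2 = rhoW δ (w 0) ^ 2 by
            linear_combination rhoW δ (w 0) ^ 2 * Real.sin_sq_add_cos_sq (2 * Real.pi * w 1 / δ)]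
        exact Real.sqrt_sq hp.le
      obtain ⟨z', hz', -, e'⟩ := neck_reduce h0 h1 (x := w)
        (abs_le.2 ⟨by linarith, by linarith⟩)
      exact Or.inl (Or.inl ⟨z', hz', by rw [e', nmap_left hw2, hwz]; exact e⟩)

theorem compactSpace (h0 : 0 < δ) (h1 : δ ≤ 1) : CompactSpace (glue h0 h1).Space := by
  let A := glue h0 h1
  have c0 : IsCompact (A.map 0 '' neckCore) :=
    (isCompact_box _).image_of_continuousOn ((A.continuousOn_map 0).mono neckCore_subset)
  have c1 : IsCompact (A.map 1 '' blockCore (rhoV 2)) :=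
    (isCompact_blockCore _).image_of_continuousOn
      ((A.continuousOn_map 1).mono (blockCore_subset rhoV_bounds.1 rhoV_bounds.2))
  have c2 : IsCompact (A.map 2 '' blockCore (rhoW δ (-2))) :=
    (isCompact_blockCore _).image_of_continuousOn
      ((A.continuousOn_map 2).mono (blockCore_subset (rhoW_bounds h0 h1).1 (rhoW_bounds h0 h1).2))
  exact ⟨((c0.union c1).union c2).of_isClosed_subset isClosed_univ fun q _ => covered h0 h1 q⟩

theorem isPreconnected_strip : IsPreconnected strip := by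
  have : strip = (co 0) ⁻¹' Ioo (-3) 3 := by
    ext x
    change |x 0| < 3 ↔ -3 < x 0 ∧ x 0 < 3
    exact abs_lt
  rw [this]
  exact ((convex_Ioo (-3 : ℝ) 3).linear_preimage (co 0).toLinearMap).isPreconnected

/-- A radial segment of a block. -/
theorem exists_radial {R : ℝ} (hR : 0 < R) (hR2 : R < 2) {z : E3} (hz : z ∈ block R)
    (hb : z ∈ box ![5, 5, 1]) :
    ∃ S : Set E3, IsPreconnected S ∧ S ⊆ block R ∧ z ∈ S ∧
      ∃ w ∈ S, R < Real.sqrt (w 0 ^ 2 + w 1 ^ 2) ∧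
        Real.sqrt (w 0 ^ 2 + w 1 ^ 2) < R + 1 := by
  set r := Real.sqrt (z 0 ^ 2 + z 1 ^ 2) with hr
  have hl : R < r := sqrt_gt_of_block hR.le hz
  have hr0 : 0 < r := hR.trans hl
  set t0 := min 1 ((R + 1 / 2) / r) with ht0
  have ht0p : 0 < t0 := lt_min one_pos (div_pos (by linarith) hr0)
  have ht0r : R < t0 * r := by
    rw [ht0, min_mul_of_nonneg _ _ hr0.le, one_mul, div_mul_cancel₀ _ hr0.ne']
    exact lt_min hl (by linarith)
  have hsq : ∀ t, 0 ≤ t → Real.sqrt ((t * z 0) ^ 2 + (t * z 1) ^ 2) = t * r := fun t ht => by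
    rw [show (t * z 0) ^ 2 + (t * z 1) ^ 2 = t ^ 2 * (z 0 ^ 2 + z 1 ^ 2) by ring,
      Real.sqrt_mul (sq_nonneg t), Real.sqrt_sq ht]
  refine ⟨(fun t => pt (t * z 0) (t * z 1) (z 2)) '' Icc t0 1, ?_, ?_, ?_, ?_⟩
  · refine isPreconnected_Icc.image _ ?_
    have : Continuous fun t : ℝ => pt (t * z 0) (t * z 1) (z 2) := by
      simp only [pt_eq_sum (_ * _)]
      fun_prop
    exact this.continuousOn
  · rintro _ ⟨t, ht, rfl⟩
    have ht' : 0 ≤ t := ht0p.le.trans ht.1
    have hle : ∀ a, |a| ≤ 5 → |t * a| ≤ 5 := fun a ha => by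
      rw [abs_mul, abs_of_nonneg ht']
      exact (mul_le_of_le_one_left (abs_nonneg a) ht.2).trans ha
    refine mem_block_of hR.le hR2 (hle _ (hb 0)) (hle _ (hb 1)) (sq_lt_of_lt_sqrt hR.le ?_)
    simp only [pt_zero, pt_one]
    rw [hsq t ht']
    exact ht0r.trans_le (mul_le_mul_of_nonneg_right ht.1 hr0.le)
  · exact ⟨1, ⟨min_le_left _ _, le_rfl⟩, by simp [pt_eta]⟩
  · refine ⟨_, ⟨t0, ⟨le_rfl, min_le_left _ _⟩, rfl⟩, ?_⟩
    simp only [pt_zero, pt_one]
    rw [hsq t0 ht0p.le]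
    refine ⟨ht0r, ?_⟩
    have : t0 * r ≤ R + 1 / 2 :=
      (mul_le_mul_of_nonneg_right (min_le_right _ _) hr0.le).trans
        (div_mul_cancel₀ _ hr0.ne').le
    linarith

theorem connectedSpace (h0 : 0 < δ) (h1 : δ ≤ 1) : ConnectedSpace (glue h0 h1).Space := by
  let A := glue h0 h1
  let S : Set A.Space := A.map 0 '' strip
  have hS : IsPreconnected S := isPreconnected_strip.image _ (A.continuousOn_map 0)
  have hbase : A.map 0 (0 : E3) ∈ S := mem_image_of_mem _ (by simp [strip])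
  have key : ∀ (i : Fin 3) (R : ℝ) (_ : 0 < R) (_ : R < 2) (_ : A.D i = block R) (z : E3),
      z ∈ block R → z ∈ box ![5, 5, 1] →
      (∀ w, R < Real.sqrt (w 0 ^ 2 + w 1 ^ 2) → Real.sqrt (w 0 ^ 2 + w 1 ^ 2) < R + 1 →
        A.map i w ∈ S) →
      ∃ t : Set A.Space, t ⊆ univ ∧ A.map 0 (0 : E3) ∈ t ∧ A.map i z ∈ t ∧ IsPreconnected t := by
    intro i R hR hR2 hD z hz hb hglue
    obtain ⟨T, hT, hTs, hzT, w, hw, hw1, hw2⟩ := exists_radial hR hR2 hz hb
    exact ⟨S ∪ A.map i '' T, subset_univ _, Or.inl hbase, Or.inr ⟨z, hzT, rfl⟩,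
      hS.union (A.map i w) (hglue w hw1 hw2) ⟨w, hw, rfl⟩
        (hT.image _ ((A.continuousOn_map i).mono (hD ▸ hTs)))⟩
  have hpre : IsPreconnected (univ : Set A.Space) := by
    refine isPreconnected_of_forall (A.map 0 (0 : E3)) fun q _ => ?_
    obtain ⟨i, x, hx, rfl⟩ := exists_mk q
    fin_cases i
    · have h : |x 0| ≤ 2 := hx
      exact ⟨S, subset_univ _, hbase, ⟨x, show |x 0| < 3 by linarith, nmap_mid h⟩, hS⟩
    · have hx' : x ∈ block (rhoV 2) := hx
      obtain ⟨z, hzb, hz, he⟩ := block_reduce h0 h1 hx'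
      have e : mk δ 1 z = mk δ 1 x := (vmap_iff hz hx').2 he
      have := key 1 (rhoV 2) rhoV_bounds.1 rhoV_bounds.2 rfl z hz hzb fun w hw1 hw2 => by
        obtain ⟨u, hu, hu2, hue⟩ := exists_toV δ hw1 hw2
        exact ⟨u, hu, (nmap_right hu2).trans (by rw [hue]; rfl)⟩
      rwa [show A.map 1 z = mk δ 1 x from e] at this
    · have hx' : x ∈ block (rhoW δ (-2)) := hx
      obtain ⟨z, hzb, hz, he⟩ := block_reduce one_pos le_rfl hx'
      have e : mk δ 2 z = mk δ 2 x := (wmap_iff hz hx').2 he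
      have := key 2 (rhoW δ (-2)) (rhoW_bounds h0 h1).1 (rhoW_bounds h0 h1).2 rfl z hz hzb
        fun w hw1 hw2 => by
          obtain ⟨u, hu, hu2, hue⟩ := exists_toW h0 hw1 hw2
          exact ⟨u, hu, (nmap_left hu2).trans (by rw [hue]; rfl)⟩
      rwa [show A.map 2 z = mk δ 2 x from e] at this
  exact { toPreconnectedSpace := ⟨hpre⟩, toNonempty := ⟨A.map 0 0⟩ }

theorem isPiece (h0 : 0 < δ) (h1 : δ ≤ 1) (i : Fin 3) (R : E3 → E3 → Prop)
    (hR : ∀ x ∈ domains δ i, ∀ y ∈ domains δ i, (maps δ i x = maps δ i y ↔ R x y)) :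
    IsPiece (glue h0 h1).metric ((glue h0 h1).map i) (domains δ i) (forms δ i) R where
  isOpen := (glue h0 h1).isOpen i
  smooth := (glue h0 h1).contMDiffOn_map i
  bij _ hx := (glue h0 h1).map_bij hx
  iso _ hx u v := (glue h0 h1).map_iso hx u v
  fibre := hR

/-- The manifold, the metric and the three pieces. -/
theorem piecesExist (h0 : 0 < δ) (h1 : δ < 1) : PiecesExist δ := by
  let A := glue h0 h1.le
  refine ⟨A.Space, inferInstance, t2Space h0 h1.le, compactSpace h0 h1.le,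
    connectedSpace h0 h1.le, inferInstance, inferInstance, A.metric, ⟨?_⟩⟩
  refine
    { N := A.map 0
      V := A.map 1
      W := A.map 2
      neck := isPiece h0 h1.le 0 _ fun x hx y hy => nmap_iff h0 h1.le hx hy
      first := isPiece h0 h1.le 1 _ fun x hx y hy => vmap_iff hx hy
      second := isPiece h0 h1.le 2 _ fun x hx y hy => wmap_iff hx hy
      glueV := fun x _ h => nmap_right h
      glueW := fun x _ h => nmap_left h
      cover := fun q => ?_
      core := fun x hx h => ⟨?_, ?_⟩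
      apart := ?_ }
  · obtain ⟨i, x, hx, rfl⟩ := exists_mk q
    fin_cases i
    · have h : |x 0| ≤ 2 := hx
      exact Or.inl ⟨x, show |x 0| < 3 by linarith, h, nmap_mid h⟩
    · exact Or.inr (Or.inl ⟨x, hx, rfl⟩)
    · exact Or.inr (Or.inr ⟨x, hx, rfl⟩)
  · rintro ⟨y, hy, e⟩
    linarith [((nmap_eq_vmap h0 h1.le hx hy).1 e.symm).1, (abs_le.1 h).2]
  · rintro ⟨y, hy, e⟩
    linarith [((nmap_eq_wmap h0 h1.le hx hy).1 e.symm).1, (abs_le.1 h).1]
  · rw [Set.disjoint_left]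
    rintro _ ⟨x, hx, rfl⟩ ⟨y, hy, e⟩
    exact vmap_ne_wmap hx hy e.symm

end

end Vale.Agent.P255.Atlas
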