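import Vale.Agent.P255.Atlas.Glue

/-!
# The metric of a glued manifold
-/

open scoped Manifold ContDiff Topology
open Set Filter Bundle

namespace Vale.Agent.P255.Atlas

open Vale.Agent.P219 Vale.Agent.P219.Univ

noncomputable section

variable {ι M : Type}

theorem isVonNBounded_lt_one (B : E3 →L[ℝ] E3 →L[ℝ] ℝ) (hB : ∀ v, v ≠ 0 → 0 < B v v) :
    Bornology.IsVonNBounded ℝ {v : E3 | B v v < 1} := by
  obtain ⟨v₀, hv₀, hmin⟩ := (isCompact_sphere (0 : E3) 1).exists_isMinOn
    (NormedSpace.sphere_nonempty.2 zero_le_one)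
    (show Continuous fun v : E3 => B v v from B.continuous.clm_apply continuous_id).continuousOn
  have hc : 0 < B v₀ v₀ := hB v₀ fun h => by simp [h] at hv₀
  rw [NormedSpace.isVonNBounded_iff, isBounded_iff_forall_norm_le]
  refine ⟨Real.sqrt (1 / B v₀ v₀), fun v hv => ?_⟩
  rcases eq_or_ne v 0 with rfl | hv0
  · simp
  have hn : 0 < ‖v‖ := norm_pos_iff.2 hv0
  have hu : ‖v‖⁻¹ • v ∈ Metric.sphere (0 : E3) 1 := by
    simp [norm_smul, hn.ne']
  have h : B v₀ v₀ ≤ ‖v‖⁻¹ * (‖v‖⁻¹ * B v v) := by simpa using hmin hu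
  have h2 : B v₀ v₀ * ‖v‖ ^ 2 ≤ B v v := by
    have := mul_le_mul_of_nonneg_right h (sq_nonneg ‖v‖)
    field_simp at this ⊢
    nlinarith
  refine Real.le_sqrt_of_sq_le ?_
  rw [le_div_iff₀ hc]
  have h3 : B v v < 1 := hv
  linarith

namespace Glue

variable (A : Glue ι M)

/-- The metric in the coordinates of the preferred chart. -/
def form (q : A.Space) : TangentSpace (𝓡 3) q →L[ℝ] TangentSpace (𝓡 3) q →L[ℝ] ℝ := A.G (A.centre q).1.1 (A.centre q).1.2

theorem iso_centre {i : ι} {x : E3} (hx : x ∈ A.D i) :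
    ∃ τ, (fun z => A.chart (A.centre (A.map i x)) (A.map i z)) =ᶠ[𝓝 x] τ ∧
      DifferentiableAt ℝ τ x ∧
      ∀ u v, A.form (A.map i x) (fderiv ℝ τ x u) (fderiv ℝ τ x v) = A.G i x u v := by
  obtain ⟨τ, h⟩ := A.trans i _ x _ hx (A.centre (A.map i x)).2 (A.P_centre _).symm
  exact ⟨τ, A.chart_near _ h (A.mem_dom _), h.smooth.differentiableAt (by simp),
    fun u v => (h.iso u v).symm⟩

theorem mfderiv_map_eq {i : ι} {x : E3} (hx : x ∈ A.D i) {τ : E3 → E3}
    (h : (fun z => A.chart (A.centre (A.map i x)) (A.map i z)) =ᶠ[𝓝 x] τ) :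
    mfderiv (𝓡 3) (𝓡 3) (A.map i) x = fderiv ℝ τ x := by
  have hd : MDifferentiableAt (𝓡 3) (𝓡 3) (A.map i) x :=
    ((A.contMDiffOn_map i).contMDiffAt ((A.isOpen i).mem_nhds hx)).mdifferentiableAt (by simp)
  simp only [mfderiv, hd, writtenInExtChartAt, extChartAt, chartAt_self_eq,
    OpenPartialHomeomorph.extend, OpenPartialHomeomorph.refl_partialEquiv,
    modelWithCornersSelf_coe, range_id, fderivWithin_univ]
  exact (h.fderiv_eq (𝕜 := ℝ))

theorem map_iso {i : ι} {x : E3} (hx : x ∈ A.D i) (u v : E3) :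
    A.form (A.map i x) (mfderiv (𝓡 3) (𝓡 3) (A.map i) x u) (mfderiv (𝓡 3) (𝓡 3) (A.map i) x v) =
      A.G i x u v := by
  obtain ⟨τ, h, -, hiso⟩ := A.iso_centre hx
  rw [A.mfderiv_map_eq hx h]
  exact hiso u v

theorem map_bij {i : ι} {x : E3} (hx : x ∈ A.D i) :
    Function.Bijective (mfderiv (𝓡 3) (𝓡 3) (A.map i) x) := by
  obtain ⟨τ, h, -, hiso⟩ := A.iso_centre hx
  have hi : Function.Injective (fderiv ℝ τ x) := by
    refine (injective_iff_map_eq_zero _).2 fun u hu => by_contra fun hu0 => ?_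
    have h0 : A.G i x u u = 0 := by
      rw [← hiso u u, hu]
      exact map_zero _
    linarith [A.pos i x hx u hu0]
  have hs : Function.Surjective (fderiv ℝ τ x) :=
    (LinearMap.injective_iff_surjective (f := (fderiv ℝ τ x).toLinearMap)).1 hi
  rw [A.mfderiv_map_eq hx h]
  exact ⟨hi, hs⟩

theorem inCoordinates_form (q₀ q : A.Space) (hq : q ∈ (chartAt E3 q₀).source) (u v : E3) :
    ContinuousLinearMap.inCoordinates E3 (TangentSpace (𝓡 3) : A.Space → Type) (E3 →L[ℝ] ℝ)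
      (fun b : A.Space => TangentSpace (𝓡 3) b →L[ℝ] ℝ) q₀ q q₀ q (A.form q) u v =
      A.G (A.centre q₀).1.1 (chartAt E3 q₀ q) u v := by
  rw [inCoordinates_apply_eq₂ (F₃ := ℝ) (E₃ := fun _ : A.Space => ℝ) hq hq
    (mem_univ _)]
  have hs : ∀ w, (trivializationAt E3 (TangentSpace (𝓡 3)) q₀).symm q w =
      fderiv ℝ (fun z => A.chart (A.centre q) (A.map (A.centre q₀).1.1 z))
        (chartAt E3 q₀ q) w := by
    intro w
    rw [← Trivialization.symmL_apply (R := ℝ) _ (show q ∈ (trivializationAt E3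
      (TangentSpace (𝓡 3)) q₀).baseSet from hq)]
    rw [TangentBundle.symmL_trivializationAt_eq_core hq]
    change tangentCoordChange (𝓡 3) q₀ q q w = _
    rw [tangentCoordChange_def]
    simp only [extChartAt, OpenPartialHomeomorph.extend, modelWithCornersSelf_coe, range_id,
      fderivWithin_univ]
    rfl
  rw [hs, hs]
  set x := chartAt E3 q₀ q with hx
  have hxD : x ∈ A.D (A.centre q₀).1.1 := A.dom_subset _ ((chartAt E3 q₀).map_source hq)
  have hqx : A.map (A.centre q₀).1.1 x = q := (chartAt E3 q₀).left_inv hq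
  obtain ⟨τ, h, -, hiso⟩ := A.iso_centre hxD
  rw [hqx] at h hiso
  rw [h.fderiv_eq]
  change (Bundle.Trivial.trivialization A.Space ℝ).linearMapAt ℝ q _ = _
  rw [Bundle.Trivial.linearMapAt_trivialization]
  exact hiso u v

/-- The glued metric. -/
def metric : SmoothMetric A.Space where
  inner q := A.form q
  symm q v w := A.symm _ _ (A.centre q).2 v w
  pos q v hv := A.pos _ _ (A.centre q).2 v hv
  isVonNBounded q := isVonNBounded_lt_one (A.form q) (A.pos _ _ (A.centre q).2)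
  contMDiff := by
    intro q₀
    rw [contMDiffAt_section]
    have hx : chartAt E3 q₀ q₀ ∈ A.D (A.centre q₀).1.1 :=
      A.dom_subset _ ((chartAt E3 q₀).map_source (mem_chart_source E3 q₀))
    have hG : ContMDiffAt (𝓡 3) 𝓘(ℝ, E3 →L[ℝ] E3 →L[ℝ] ℝ) ∞ (A.G (A.centre q₀).1.1)
        (chartAt E3 q₀ q₀) :=
      ((A.smoothG _).contDiffAt ((A.isOpen _).mem_nhds hx)).contMDiffAt
    have hc : ContMDiffAt (𝓡 3) (𝓡 3) ∞ (chartAt E3 q₀) q₀ :=
      contMDiffAt_of_mem_maximalAtlas (IsManifold.chart_mem_maximalAtlas q₀)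
        (mem_chart_source E3 q₀)
    refine (hG.comp q₀ hc).congr_of_eventuallyEq ?_
    filter_upwards [(chartAt E3 q₀).open_source.mem_nhds (mem_chart_source E3 q₀)] with q hq
    refine ContinuousLinearMap.ext fun u => ContinuousLinearMap.ext fun v => ?_
    rw [hom_trivializationAt_apply]
    exact A.inCoordinates_form q₀ q hq u v

end Glue

end

end Vale.Agent.P255.Atlas
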