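import Vale.Agent.P255.Atlas.Cylinder
import Vale.Agent.P255.Atlas.Metric

/-!
# The neck and the two blocks as pieces of one manifold
-/

open scoped ContDiff Topology RealInnerProductSpace
open Set Filter

namespace Vale.Agent.P255.Atlas

open Vale.Agent.P219 Vale.Agent.P219.Univ

noncomputable section

theorem block_lat {R p : ℝ} {x y : E3} (h : BlockEq p x y) (hx : x ∈ block R) : y ∈ block R := by
  obtain ⟨⟨a, ha⟩, ⟨b, hb⟩, -⟩ := h
  intro m n
  have h := hx (m - a) (n - b)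
  rw [ha, hb]
  push_cast at h
  calc R ^ 2 < _ := h
    _ = _ := by ring

theorem co_round (a : ℝ) : ∃ m : ℤ, |a - m * 10| ≤ 5 := by
  obtain ⟨m, hm⟩ := exists_reduce a 10 (by norm_num)
  exact ⟨m, hm.trans (by norm_num)⟩

theorem isOpen_block (R : ℝ) : IsOpen (block R) := by
  rw [isOpen_iff_mem_nhds]
  intro x hx
  obtain ⟨m, hm⟩ := co_round (x 0)
  obtain ⟨n, hn⟩ := co_round (x 1)
  let A : Finset (ℤ × ℤ) :=
    Finset.Icc (m - ⌈|R|⌉ - 2) (m + ⌈|R|⌉ + 2) ×ˢ Finset.Icc (n - ⌈|R|⌉ - 2) (n + ⌈|R|⌉ + 2)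
  have h1 : ∀ᶠ z in 𝓝 x, ∀ k ∈ A, R ^ 2 < (z 0 - k.1 * 10) ^ 2 + (z 1 - k.2 * 10) ^ 2 := by
    rw [Finset.eventually_all]
    intro k _
    exact (continuousAt_const.eventually_lt (by fun_prop) (hx k.1 k.2))
  have h2 : ∀ i : Fin 3, ∀ᶠ z in 𝓝 x, |z i - x i| < 1 := fun i =>
    (show Continuous fun z : E3 => |z i - x i| by fun_prop).continuousAt.eventually_lt
      continuousAt_const (by simp)
  filter_upwards [h1, h2 0, h2 1] with z hz h0 h1' a b
  by_contra hc
  have hc' := not_lt.1 hc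
  have key : ∀ (u v : ℝ) (i j : ℤ), (u - i * 10) ^ 2 ≤ R ^ 2 → |u - v| < 1 →
      |v - j * 10| ≤ 5 → i ∈ Finset.Icc (j - ⌈|R|⌉ - 2) (j + ⌈|R|⌉ + 2) := by
    intro u v i j hu huv hv
    obtain ⟨p1, p2⟩ := abs_le.1 (sq_le_sq.1 hu)
    obtain ⟨p3, p4⟩ := abs_lt.1 huv
    obtain ⟨p5, p6⟩ := abs_le.1 hv
    have hceil := Int.le_ceil |R|
    have habs := abs_nonneg R
    have e1 : (j : ℝ) - ⌈|R|⌉ - 2 ≤ i := by nlinarith
    have e2 : (i : ℝ) ≤ j + ⌈|R|⌉ + 2 := by nlinarith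
    exact Finset.mem_Icc.2 ⟨by exact_mod_cast e1, by exact_mod_cast e2⟩
  refine hc (hz (a, b) (Finset.mem_product.2 ⟨key _ _ a m ?_ h0 hm, key _ _ b n ?_ h1' hn⟩))
  · nlinarith [sq_nonneg (z 1 - b * 10)]
  · nlinarith [sq_nonneg (z 0 - a * 10)]

theorem isOpen_strip : IsOpen strip :=
  isOpen_lt (by fun_prop) continuous_const

/-- The periods. -/
def per (δ : ℝ) : Fin 3 → E3 := ![pt 0 δ 1, pt 10 10 δ, pt 10 10 1]

/-- The three cells of the manifold. -/
def cells (δ : ℝ) : Fin 3 → Set E3 := ![{x | |x 0| ≤ 2}, block (rhoV 2), block (rhoW δ (-2))]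

theorem zero_mem_cells (δ : ℝ) : (0 : E3) ∈ cells δ 0 := by simp [cells]

/-- Tagged points. -/
def Tag (δ : ℝ) : Type := {c : Fin 3 × E3 // c.2 ∈ cells δ c.1}

instance tagSetoid (δ : ℝ) : Setoid (Tag δ) where
  r c d := c.1.1 = d.1.1 ∧ Lat (per δ c.1.1) c.1.2 d.1.2
  iseqv :=
    { refl := fun _ => ⟨rfl, Lat.refl _ _⟩
      symm := fun {c d} h => ⟨h.1.symm, h.1 ▸ h.2.symm⟩
      trans := fun {c d e} h h' => ⟨h.1.trans h'.1, h.2.trans (h.1.symm ▸ h'.2)⟩ }

/-- The underlying set of the manifold. -/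
abbrev Carrier (δ : ℝ) : Type := Quotient (tagSetoid δ)

open scoped Classical in
/-- The class of a point of a cell. -/
def mk (δ : ℝ) (i : Fin 3) (x : E3) : Carrier δ :=
  if h : x ∈ cells δ i then ⟦⟨(i, x), h⟩⟧ else ⟦⟨(0, 0), zero_mem_cells δ⟩⟧

theorem mk_eq {δ : ℝ} {i j : Fin 3} {x y : E3} (hx : x ∈ cells δ i) (hy : y ∈ cells δ j) :
    mk δ i x = mk δ j y ↔ i = j ∧ Lat (per δ i) x y := by
  rw [mk, mk, dif_pos hx, dif_pos hy]
  exact Quotient.eq

theorem exists_mk {δ : ℝ} (q : Carrier δ) : ∃ i, ∃ x ∈ cells δ i, mk δ i x = q := by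
  induction q using Quotient.inductionOn with
  | h c => exact ⟨c.1.1, c.1.2, c.2, dif_pos c.2⟩

theorem vmap_iff {δ : ℝ} {x y : E3} (hx : x ∈ block (rhoV 2)) (hy : y ∈ block (rhoV 2)) :
    mk δ 1 x = mk δ 1 y ↔ BlockEq δ x y := by
  rw [mk_eq (i := 1) (j := 1) hx hy, blockEq_iff]
  simp [per]

theorem wmap_iff {δ : ℝ} {x y : E3} (hx : x ∈ block (rhoW δ (-2)))
    (hy : y ∈ block (rhoW δ (-2))) : mk δ 2 x = mk δ 2 y ↔ BlockEq 1 x y := by
  rw [mk_eq (i := 2) (j := 2) hx hy, blockEq_iff]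
  simp [per]

/-- The map of the neck. -/
def nmap (δ : ℝ) (x : E3) : Carrier δ :=
  if |x 0| ≤ 2 then mk δ 0 x else if 2 < x 0 then mk δ 1 (toV δ x) else mk δ 2 (toW δ x)

theorem nmap_mid {δ : ℝ} {x : E3} (h : |x 0| ≤ 2) : nmap δ x = mk δ 0 x := if_pos h

theorem nmap_right {δ : ℝ} {x : E3} (h : 2 < x 0) : nmap δ x = mk δ 1 (toV δ x) := by
  rw [nmap, if_neg (fun h' => by linarith [(abs_le.1 h').2]), if_pos h]

theorem nmap_left {δ : ℝ} {x : E3} (h : x 0 < -2) : nmap δ x = mk δ 2 (toW δ x) := by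
  rw [nmap, if_neg (fun h' => by linarith [(abs_le.1 h').1]), if_neg (fun h' => by linarith)]

theorem regime (x : E3) : |x 0| ≤ 2 ∨ 2 < x 0 ∨ x 0 < -2 := by
  rcases le_or_gt |x 0| 2 with h | h
  · exact Or.inl h
  · exact Or.inr (lt_abs.1 h |>.imp id (fun h => by linarith))

section

variable {δ : ℝ} (h0 : 0 < δ) (h1 : δ ≤ 1)
include h0 h1

theorem nmap_eq_vmap {x y : E3} (hx : x ∈ strip) (hy : y ∈ block (rhoV 2)) :
    nmap δ x = mk δ 1 y ↔ 2 < x 0 ∧ BlockEq δ (toV δ x) y := by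
  rcases regime x with h | h | h
  · rw [nmap_mid h, mk_eq (i := 0) (j := 1) h hy]
    simp [show ¬2 < x 0 by linarith [(abs_le.1 h).2]]
  · rw [nmap_right h, vmap_iff (toV_mem hx h) hy]
    simp [h]
  · rw [nmap_left h, mk_eq (i := 2) (j := 1) (toW_mem h0 h1 hx h) hy]
    simp [show ¬2 < x 0 by linarith]

theorem nmap_eq_wmap {x y : E3} (hx : x ∈ strip) (hy : y ∈ block (rhoW δ (-2))) :
    nmap δ x = mk δ 2 y ↔ x 0 < -2 ∧ BlockEq 1 (toW δ x) y := by
  rcases regime x with h | h | h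
  · rw [nmap_mid h, mk_eq (i := 0) (j := 2) h hy]
    simp [show ¬x 0 < -2 by linarith [(abs_le.1 h).1]]
  · rw [nmap_right h, mk_eq (i := 1) (j := 2) (toV_mem hx h) hy]
    simp [show ¬x 0 < -2 by linarith]
  · rw [nmap_left h, wmap_iff (toW_mem h0 h1 hx h) hy]
    simp [h]

omit h0 h1 in
theorem vmap_ne_wmap {x y : E3} (hx : x ∈ block (rhoV 2)) (hy : y ∈ block (rhoW δ (-2))) :
    mk δ 1 x ≠ mk δ 2 y := by
  rw [Ne, mk_eq (i := 1) (j := 2) hx hy]
  simp

theorem nmap_iff {x y : E3} (hx : x ∈ strip) (hy : y ∈ strip) :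
    nmap δ x = nmap δ y ↔ NeckEq δ x y := by
  rcases regime x with h | h | h
  · rcases regime y with h' | h' | h'
    · rw [nmap_mid h, nmap_mid h', mk_eq (i := 0) (j := 0) h h', neckEq_iff]
      simp [per]
    · rw [nmap_mid h, nmap_right h', mk_eq (i := 0) (j := 1) h (toV_mem hy h')]
      simp only [show (0 : Fin 3) ≠ 1 by decide, false_and, false_iff]
      exact fun e => by linarith [(abs_le.1 h).2, e.1]
    · rw [nmap_mid h, nmap_left h', mk_eq (i := 0) (j := 2) h (toW_mem h0 h1 hy h')]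
      simp only [show (0 : Fin 3) ≠ 2 by decide, false_and, false_iff]
      exact fun e => by linarith [(abs_le.1 h).1, e.1]
  · rw [nmap_right h, eq_comm, nmap_eq_vmap h0 h1 hy (toV_mem hx h)]
    constructor
    · rintro ⟨h', e⟩
      have := (toV_iff hy hx h' h).1 e
      rw [neckEq_iff] at this ⊢
      exact this.symm
    · intro e
      have h' : 2 < y 0 := e.1 ▸ h
      refine ⟨h', ?_⟩
      have := (toV_iff hx hy h h').2 e
      rw [blockEq_iff] at this ⊢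
      exact this.symm
  · rw [nmap_left h, eq_comm, nmap_eq_wmap h0 h1 hy (toW_mem h0 h1 hx h)]
    constructor
    · rintro ⟨h', e⟩
      have := (toW_iff h0 h1 hy hx h' h).1 e
      rw [neckEq_iff] at this ⊢
      exact this.symm
    · intro e
      have h' : y 0 < -2 := e.1 ▸ h
      refine ⟨h', ?_⟩
      have := (toW_iff h0 h1 hx hy h h').2 e
      rw [blockEq_iff] at this ⊢
      exact this.symm

end

theorem isTrans_translation {M : Type} {P : E3 → M} {G : MetricField 3} {x y : E3}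
    (hP : ∀ᶠ z in 𝓝 x, P z = P (z + (y - x))) (hG : G x = G y) :
    IsTrans P P G G x y (fun z => z + (y - x)) where
  smooth := contDiffAt_id.add contDiffAt_const
  image := add_sub_cancel x y
  compat := hP
  iso u v := by simp [hG]

theorem IsTrans.inverse {M : Type} {P Q : E3 → M} {G H : MetricField 3} {x y : E3} {τ : E3 → E3}
    (h : IsTrans P Q G H x y τ) (hpos : ∀ u, u ≠ 0 → 0 < G x u u) :
    ∃ σ, IsTrans Q P H G y x σ := by
  obtain ⟨hsm, rfl, hc, hiso⟩ := h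
  set T : E3 →L[ℝ] E3 := fderiv ℝ τ x with hT
  have hi : Function.Injective (T : E3 → E3) := by
    refine (injective_iff_map_eq_zero _).2 fun u hu => by_contra fun hu0 => ?_
    have := hiso u u
    rw [hu] at this
    simp at this
    linarith [hpos u hu0]
  let e : E3 ≃L[ℝ] E3 :=
    (LinearEquiv.ofInjectiveEndo (T.toLinearMap) hi).toContinuousLinearEquiv
  have he : HasFDerivAt τ (e : E3 →L[ℝ] E3) x := by
    have heq : (e : E3 →L[ℝ] E3) = T := ContinuousLinearMap.ext fun u => rfl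
    rw [heq]
    exact (hsm.differentiableAt (by simp)).hasFDerivAt
  have hn : (∞ : WithTop ℕ∞) ≠ 0 := by simp
  have hs := hsm.hasStrictFDerivAt' he hn
  have himg : hsm.localInverse he hn (τ x) = x := hsm.localInverse_apply_image he hn
  have hd : HasFDerivAt (hsm.localInverse he hn) (e.symm : E3 →L[ℝ] E3) (τ x) :=
    hs.to_localInverse.hasFDerivAt
  refine ⟨hsm.localInverse he hn, ⟨hsm.to_localInverse he hn, himg, ?_, fun u v => ?_⟩⟩
  · have ht : Tendsto (hsm.localInverse he hn) (𝓝 (τ x)) (𝓝 x) := by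
      have := hd.continuousAt.tendsto
      rwa [himg] at this
    have hr : ∀ᶠ z in 𝓝 (τ x), τ (hsm.localInverse he hn z) = z := hs.eventually_right_inverse
    filter_upwards [hr, ht.eventually hc] with z hz hz'
    rw [hz', hz]
  · rw [hd.fderiv, hiso]
    change H (τ x) u v = H (τ x) (e (e.symm u)) (e (e.symm v))
    rw [e.apply_symm_apply, e.apply_symm_apply]

end

end Vale.Agent.P255.Atlas
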